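import Vale.Agent.P057.Torus.Free

/-!
# P057: the outermost level on the torus, counting
-/

namespace Vale.Agent.P057.Torus

open Finset Function

/-- The allowed digit pairs, coded below `Q * Q`. -/
def digits (r : ℕ) : Finset ℕ :=
  ((range (3 * r) ×ˢ range (3 * r)) ∪ (Ico (3 * r) (4 * r) ×ˢ Ico (4 * r) (5 * r))).image
    fun e => e.1 + base r * e.2

lemma digits_lt {r e : ℕ} (he : e ∈ digits r) : e < base r * base r := by
  obtain ⟨⟨a, b⟩, hab, rfl⟩ := mem_image.1 he
  simp only [mem_union, mem_product, mem_range, mem_Ico] at hab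
  have h1 : a < base r := by unfold base; omega
  have h2 : b + 1 ≤ base r := by unfold base; omega
  calc a + base r * b < base r + base r * b := by omega
    _ = base r * (b + 1) := by ring
    _ ≤ _ := Nat.mul_le_mul_left _ h2

lemma card_digits (r : ℕ) : #(digits r) = 10 * r ^ 2 := by
  unfold digits
  rw [card_image_of_injOn, card_union_of_disjoint]
  · simp only [card_product, card_range, Nat.card_Ico]
    rw [show 4 * r - 3 * r = r by omega, show 5 * r - 4 * r = r by omega]
    ring
  · rw [Finset.disjoint_left]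
    intro e he he'
    simp only [mem_product, mem_range, mem_Ico] at he he'
    omega
  · intro x hx y hy hxy
    simp only [coe_union, coe_product, coe_range, coe_Ico, Set.mem_union, Set.mem_prod,
      Set.mem_Iio, Set.mem_Ico] at hx hy
    simp only at hxy
    have h1 : x.1 < base r := by unfold base; omega
    have h2 : y.1 < base r := by unfold base; omega
    have hb : 0 < base r := by omega
    have h3 := congrArg (fun z => z % base r) hxy
    have h4 := congrArg (fun z => z / base r) hxy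
    simp only [Nat.add_mul_mod_self_left, Nat.mod_eq_of_lt h1, Nat.mod_eq_of_lt h2,
      Nat.add_mul_div_left _ _ hb, Nat.div_eq_of_lt h1, Nat.div_eq_of_lt h2, zero_add] at h3 h4
    exact Prod.ext h3 h4

/-- A residue modulo `W * m` divided by it lies in the cell of its top digit. -/
lemma cell {W m lo hi : ℕ} (hW : 0 < W) (hm : 0 < m) (v : ℕ) (hlo : lo ≤ v / W % m)
    (hhi : v / W % m < hi) :
    (lo : ℝ) / m ≤ Int.fract (((v : ℤ) : ℝ) / (W * m : ℕ)) ∧
      Int.fract (((v : ℤ) : ℝ) / (W * m : ℕ)) < (hi : ℝ) / m := by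
  rw [Int.cast_natCast, Int.fract_div_natCast_eq_div_natCast_mod, Nat.mod_mul]
  set e := v / W % m with he
  have h1 : v % W < W := Nat.mod_lt _ hW
  have hWr : (0 : ℝ) < W := by exact_mod_cast hW
  have hmr : (0 : ℝ) < m := by exact_mod_cast hm
  constructor
  · rw [div_le_div_iff₀ hmr (by positivity)]
    have : lo * (W * m) ≤ (v % W + W * e) * m := by
      calc lo * (W * m) = W * lo * m := by ring
        _ ≤ W * e * m := by gcongr
        _ ≤ _ := by gcongr; omega
    exact_mod_cast this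
  · rw [div_lt_div_iff₀ (by positivity) hmr]
    have : (v % W + W * e) * m < hi * (W * m) := by
      calc (v % W + W * e) * m < (W + W * e) * m := Nat.mul_lt_mul_of_pos_right (by omega) hm
        _ = W * (e + 1) * m := by ring
        _ ≤ W * hi * m := by gcongr; omega
        _ = hi * (W * m) := by ring
    exact_mod_cast this

lemma inReg_of_digits {r T v : ℕ} (hr : 0 < r)
    (h : ∀ t < T, v / (base r * base r) ^ t % (base r * base r) ∈ digits r) :
    InReg r T (v : ℤ) := by
  intro t ht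
  have hb : 0 < base r := by unfold base; omega
  obtain ⟨⟨a, b⟩, hab, he⟩ := mem_image.1 (h t ht)
  simp only at he
  set W := (base r * base r) ^ t with hW
  have hW0 : 0 < W := by positivity
  have ha : a < base r := by
    simp only [mem_union, mem_product, mem_range, mem_Ico] at hab; unfold base; omega
  have hx : v / W % base r = a := by
    rw [← Nat.mod_mod_of_dvd (v / W) (dvd_mul_left (base r) (base r)), ← he,
      Nat.add_mul_mod_self_left, Nat.mod_eq_of_lt ha]
  have hy : v / (W * base r) % base r = b := by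
    rw [← Nat.div_div_eq_div_mul, ← Nat.mod_mul_right_div_self, ← he,
      Nat.add_mul_div_left _ _ hb, Nat.div_eq_of_lt ha, zero_add]
  have ecy : cy r t (v : ℤ) = Int.fract (((v : ℤ) : ℝ) / (W * base r * base r : ℕ)) := by
    rw [cy, pow_succ, ← hW, mul_assoc]
  have hr1 : (0 : ℝ) < r := by exact_mod_cast hr
  have q0 : (((base r) : ℕ) : ℝ) = 6 * r := by simp [base]
  simp only [mem_union, mem_product, mem_range, mem_Ico] at hab
  rcases hab with ⟨hA, hB⟩ | ⟨⟨hA, hA'⟩, hB, hB'⟩
  · obtain ⟨x1, x2⟩ := cell (lo := 0) (hi := 3 * r) hW0 hb v (Nat.zero_le _) (hx ▸ hA)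
    obtain ⟨y1, y2⟩ := cell (W := W * base r) (lo := 0) (hi := 3 * r) (by positivity) hb v
      (Nat.zero_le _) (hy ▸ hB)
    rw [← cx] at x1 x2
    rw [← ecy] at y1 y2
    push_cast at x1 x2 y1 y2
    rw [q0] at x1 x2 y1 y2
    have e : 3 * (r : ℝ) / (6 * r) = 1 / 2 := by field_simp; ring
    rw [e] at x2 y2
    rw [zero_div] at x1 y1
    have : lab r t (v : ℤ) = false := by simp [lab]; linarith
    simp only [Reg, this, cond_false]
    exact ⟨⟨x1, x2⟩, y1, y2⟩
  · obtain ⟨x1, x2⟩ := cell (lo := 3 * r) (hi := 4 * r) hW0 hb v (hx ▸ hA) (hx ▸ hA')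
    obtain ⟨y1, y2⟩ := cell (W := W * base r) (lo := 4 * r) (hi := 5 * r) (by positivity) hb v
      (hy ▸ hB) (hy ▸ hB')
    rw [← cx] at x1 x2
    rw [← ecy] at y1 y2
    push_cast at x1 x2 y1 y2
    rw [q0] at x1 x2 y1 y2
    have e3 : 3 * (r : ℝ) / (6 * r) = 1 / 2 := by field_simp; ring
    have e4 : 4 * (r : ℝ) / (6 * r) = 2 / 3 := by field_simp; ring
    have e5 : 5 * (r : ℝ) / (6 * r) = 5 / 6 := by field_simp
    rw [e3] at x1
    rw [e4] at x2 y1
    rw [e5] at y2
    have : lab r t (v : ℤ) = true := by simp [lab]; linarith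
    simp only [Reg, this, cond_true]
    exact ⟨⟨x1, x2⟩, y1, y2⟩

lemma nsq_bounds {r T : ℕ} {v : ℤ} (h : InReg r T v) :
    0 ≤ nsq r T v ∧ nsq r T v ≤ 2 * T := by
  refine ⟨sum_nonneg fun t _ => by positivity, ?_⟩
  unfold nsq
  refine (sum_le_card_nsmul _ _ 2 fun t ht => ?_).trans_eq (by simp [mul_comm])
  have hR := h t (mem_range.1 ht)
  cases hl : lab r t v <;> simp only [Reg, back, hl, cond_true, cond_false] at hR ⊢ <;> nlinarith

/-- The combinatorial form of the step. -/
theorem torus_step {r T k M : ℕ} (hr : 0 < r) (hT : 0 < T) (hk : 5 ≤ k) (A' : Finset ℤ)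
    (hfree : Free 2 k A') (hA' : ∀ a ∈ A', 0 ≤ a ∧ a < (M : ℤ)) (hM : 5000 * T * r ^ 2 ≤ M) :
    ∃ A : Finset ℤ, (∀ a ∈ A, 0 ≤ a ∧ a < (((base r * base r) ^ T : ℕ) : ℤ)) ∧ Free 1 k A ∧
      (10 * r ^ 2) ^ T * A'.card ≤ 5 * M * A.card := by
  classical
  set Q2 := base r * base r with hQ2
  set S : Finset ℕ :=
    (range (Q2 ^ T)).filter fun v => ∀ t < T, v / Q2 ^ t % Q2 ∈ digits r with hS
  have hcard : (10 * r ^ 2) ^ T ≤ #S := by
    rw [← card_digits, ← Fintype.card_coe, ← Fintype.card_fin T, ← Fintype.card_fun,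
      ← Finset.card_univ]
    refine card_le_card_of_injOn
      (fun g => ((finFunctionFinEquiv fun i => (⟨(g i).1, digits_lt (g i).2⟩ : Fin Q2)) : ℕ))
      (fun g _ => ?_) (fun g _ g' _ e => ?_)
    · -- membership
      refine mem_filter.2 ⟨mem_range.2 (Fin.isLt _), fun t ht => ?_⟩
      have := finFunctionFinEquiv_symm_apply_val
        (finFunctionFinEquiv fun i => (⟨(g i).1, digits_lt (g i).2⟩ : Fin Q2)) ⟨t, ht⟩
      rw [Equiv.symm_apply_apply] at this
      rw [← this]
      exact (g ⟨t, ht⟩).2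
    · have := finFunctionFinEquiv.injective (Fin.ext e)
      funext i
      exact Subtype.ext (congrArg Fin.val (congrFun this i))
  have hbin : ∀ v ∈ S, 0 ≤ bin r T (v : ℤ) ∧ bin r T (v : ℤ) < (M : ℤ) := by
    intro v hv
    obtain ⟨h0, h1⟩ := nsq_bounds (inReg_of_digits hr (mem_filter.1 hv).2)
    refine ⟨Int.floor_nonneg.2 (by positivity), Int.floor_lt.2 ?_⟩
    have hT1 : (1 : ℝ) ≤ T := by exact_mod_cast hT
    have hr1 : (1 : ℝ) ≤ r := by exact_mod_cast hr
    have hb : (base r : ℝ) = 6 * r := by simp [base]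
    have hM' : (5000 : ℝ) * T * r ^ 2 ≤ M := by exact_mod_cast hM
    have h2 := mul_le_mul_of_nonneg_left h1 (show (0 : ℝ) ≤ 64 * (base r : ℝ) ^ 2 by positivity)
    have h3 : (0 : ℝ) < T * r ^ 2 := by positivity
    rw [hb] at h2 ⊢
    push_cast
    linarith
  set F : ℤ → Finset ℕ := fun τ =>
    S.filter fun v => ∃ α ∈ A', bin r T (v : ℤ) = τ + 4 * α with hF
  obtain ⟨τ, hτ⟩ : ∃ τ, #S * A'.card ≤ 5 * M * #(F τ) := by
    rcases Nat.eq_zero_or_pos (#S * A'.card) with h0 | h0
    · exact ⟨0, by omega⟩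
    have hsum : ∑ τ ∈ Ico (-(4 * M : ℤ)) M, #(F τ) = #S * A'.card := by
      simp only [hF, card_filter]
      rw [sum_comm]
      refine sum_const_nat fun v hv => ?_
      rw [← card_filter]
      symm
      refine card_bij (fun α _ => bin r T (v : ℤ) - 4 * α) (fun α hα => mem_filter.2 ⟨?_, α, hα, by ring⟩)
        (fun a _ b _ h => by omega) fun b hb => ?_
      · have := hA' α hα
        have := hbin v hv
        exact mem_Ico.2 ⟨by omega, by omega⟩
      · obtain ⟨α, hα, e⟩ := (mem_filter.1 hb).2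
        exact ⟨α, hα, by omega⟩
    have hne : (Ico (-(4 * M : ℤ)) M).Nonempty := by
      rcases (Ico (-(4 * M : ℤ)) M).eq_empty_or_nonempty with h | h
      · rw [h, sum_empty] at hsum; omega
      · exact h
    obtain ⟨τ, -, hmax⟩ := exists_max_image _ (fun τ => #(F τ)) hne
    refine ⟨τ, ?_⟩
    rw [← hsum]
    refine (sum_le_card_nsmul _ _ _ hmax).trans (le_of_eq ?_)
    rw [Int.card_Ico, smul_eq_mul]
    congr 1
    omega
  refine ⟨(F τ).map Nat.castEmbedding, fun a ha => ?_,
    free_torus (T := T) hr hk τ hfree fun a ha => ?_, ?_⟩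
  · obtain ⟨v, hv, rfl⟩ := mem_map.1 ha
    have := mem_range.1 (mem_filter.1 (mem_filter.1 hv).1).1
    simp only [Nat.castEmbedding_apply]
    exact ⟨Int.natCast_nonneg v, by exact_mod_cast this⟩
  · obtain ⟨v, hv, rfl⟩ := mem_map.1 ha
    obtain ⟨hvS, hvA⟩ := mem_filter.1 hv
    have := mem_range.1 (mem_filter.1 hvS).1
    simp only [Nat.castEmbedding_apply]
    exact ⟨⟨Int.natCast_nonneg v, by exact_mod_cast this⟩,
      inReg_of_digits hr (mem_filter.1 hvS).2, hvA⟩
  · rw [card_map]
    exact (Nat.mul_le_mul_right _ hcard).trans hτ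

end Vale.Agent.P057.Torus
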