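import Mathlib

/-!
# P057: the pattern lemma for the planar region

The region is `[0,1/2)² ∪ [1/2,2/3) × [2/3,5/6)`.  Five points of it in arithmetic progression
modulo `ℤ²` become a genuine progression once the small rectangle is shifted back by `(1/2,1/2)`.
-/

namespace Vale.Agent.P057.Torus

/-- The region, with the label `s` telling the piece. -/
def Reg (s : Bool) (x y : ℝ) : Prop :=
  bif s then (1 / 2 ≤ x ∧ x < 2 / 3) ∧ 2 / 3 ≤ y ∧ y < 5 / 6
  else (0 ≤ x ∧ x < 1 / 2) ∧ 0 ≤ y ∧ y < 1 / 2

/-- The shift back. -/
noncomputable def back (s : Bool) (x : ℝ) : ℝ := bif s then x - 1 / 2 else x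

/-- Second differences that are integers. -/
def Win (a b c : ℝ) : Prop := ∃ n : ℤ, a + c - 2 * b = n

lemma Win.symm {a b c : ℝ} (h : Win a b c) : Win c b a := by
  obtain ⟨n, hn⟩ := h
  exact ⟨n, by linarith⟩

lemma win_three {a b c : ℝ} {n : ℤ} (h : a + c - 2 * b = n) (h1 : -2 < a + c - 2 * b)
    (h2 : a + c - 2 * b < 2) :
    a + c - 2 * b = -1 ∨ a + c - 2 * b = 0 ∨ a + c - 2 * b = 1 := by
  rw [h] at h1 h2
  have h3 : (-2 : ℤ) < n := by exact_mod_cast h1
  have h4 : n < 2 := by exact_mod_cast h2
  rcases (show n = -1 ∨ n = 0 ∨ n = 1 by omega) with rfl | rfl | rfl <;> simp [h]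

/-- Windows that do not change pieces irregularly are linear; two others are empty. -/
lemma window_regular {sa sb sc : Bool} {xa ya xb yb xc yc : ℝ} (ha : Reg sa xa ya)
    (hb : Reg sb xb yb) (hc : Reg sc xc yc) (hx : Win xa xb xc) (hy : Win ya yb yc) :
    ((sa = false ∧ sb = false ∧ sc = true) ∨ (sa = true ∧ sb = false ∧ sc = false)) ∨
      (back sa xa + back sc xc = 2 * back sb xb ∧ back sa ya + back sc yc = 2 * back sb yb) := by
  obtain ⟨n, hn⟩ := hx
  obtain ⟨m, hm⟩ := hy
  cases sa <;> cases sb <;> cases sc <;>
    simp only [Reg, back, cond_true, cond_false] at ha hb hc ⊢ <;>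
    first
      | simp; done
      | (refine Or.inr ?_
         rcases win_three hn (by linarith) (by linarith) with h | h | h <;>
           rcases win_three hm (by linarith) (by linarith) with h' | h' | h' <;>
           first | (exfalso; linarith) | (constructor <;> linarith))

/-- Five labelled points in progression modulo `ℤ²`. -/
structure Five (s0 s1 s2 s3 s4 : Bool) (x0 x1 x2 x3 x4 y0 y1 y2 y3 y4 : ℝ) : Prop where
  r0 : Reg s0 x0 y0
  r1 : Reg s1 x1 y1
  r2 : Reg s2 x2 y2
  r3 : Reg s3 x3 y3
  r4 : Reg s4 x4 y4
  a0 : Win x0 x1 x2
  a1 : Win x1 x2 x3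
  a2 : Win x2 x3 x4
  b0 : Win y0 y1 y2
  b1 : Win y1 y2 y3
  b2 : Win y2 y3 y4

lemma five_no_first {u v : Bool} {x0 x1 x2 x3 x4 y0 y1 y2 y3 y4 : ℝ}
    (h : Five false false true u v x0 x1 x2 x3 x4 y0 y1 y2 y3 y4) : False := by
  obtain ⟨r0, r1, r2, r3, r4, a0, a1, a2, b0, b1, b2⟩ := h
  cases u <;> cases v <;> simp only [Reg, cond_true, cond_false] at r0 r1 r2 r3 r4 <;>
    first
      | (obtain ⟨n0, k0⟩ := b0
         obtain ⟨n1, k1⟩ := b1
         obtain ⟨n2, k2⟩ := b2
         rcases win_three k0 (by linarith) (by linarith) with e | e | e <;>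
           first
             | linarith
             | (rcases win_three k1 (by linarith) (by linarith) with e' | e' | e' <;>
                 first
                   | linarith
                   | (rcases win_three k2 (by linarith) (by linarith) with e'' | e'' | e'' <;>
                       linarith)))
      | (obtain ⟨n0, k0⟩ := a0
         obtain ⟨n1, k1⟩ := a1
         obtain ⟨n2, k2⟩ := a2
         rcases win_three k0 (by linarith) (by linarith) with e | e | e <;>
           first
             | linarith
             | (rcases win_three k1 (by linarith) (by linarith) with e' | e' | e' <;>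
                 first
                   | linarith
                   | (rcases win_three k2 (by linarith) (by linarith) with e'' | e'' | e'' <;>
                       linarith)))

lemma five_no_middle {u v : Bool} {x0 x1 x2 x3 x4 y0 y1 y2 y3 y4 : ℝ}
    (h : Five u false false true v x0 x1 x2 x3 x4 y0 y1 y2 y3 y4) : False := by
  obtain ⟨r0, r1, r2, r3, r4, a0, a1, a2, b0, b1, b2⟩ := h
  cases u <;> cases v <;> simp only [Reg, cond_true, cond_false] at r0 r1 r2 r3 r4 <;>
    first
      | (obtain ⟨n0, k0⟩ := b0
         obtain ⟨n1, k1⟩ := b1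
         obtain ⟨n2, k2⟩ := b2
         rcases win_three k0 (by linarith) (by linarith) with e | e | e <;>
           first
             | linarith
             | (rcases win_three k1 (by linarith) (by linarith) with e' | e' | e' <;>
                 first
                   | linarith
                   | (rcases win_three k2 (by linarith) (by linarith) with e'' | e'' | e'' <;>
                       linarith)))
      | (obtain ⟨n0, k0⟩ := a0
         obtain ⟨n1, k1⟩ := a1
         obtain ⟨n2, k2⟩ := a2
         rcases win_three k0 (by linarith) (by linarith) with e | e | e <;>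
           first
             | linarith
             | (rcases win_three k1 (by linarith) (by linarith) with e' | e' | e' <;>
                 first
                   | linarith
                   | (rcases win_three k2 (by linarith) (by linarith) with e'' | e'' | e'' <;>
                       linarith)))

lemma five_no_last {u v : Bool} {x0 x1 x2 x3 x4 y0 y1 y2 y3 y4 : ℝ}
    (h : Five u v false false true x0 x1 x2 x3 x4 y0 y1 y2 y3 y4) : False := by
  obtain ⟨r0, r1, r2, r3, r4, a0, a1, a2, b0, b1, b2⟩ := h
  cases u <;> cases v <;> simp only [Reg, cond_true, cond_false] at r0 r1 r2 r3 r4 <;>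
    first
      | (obtain ⟨n0, k0⟩ := b0
         obtain ⟨n1, k1⟩ := b1
         obtain ⟨n2, k2⟩ := b2
         rcases win_three k0 (by linarith) (by linarith) with e | e | e <;>
           first
             | linarith
             | (rcases win_three k1 (by linarith) (by linarith) with e' | e' | e' <;>
                 first
                   | linarith
                   | (rcases win_three k2 (by linarith) (by linarith) with e'' | e'' | e'' <;>
                       linarith)))
      | (obtain ⟨n0, k0⟩ := a0
         obtain ⟨n1, k1⟩ := a1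
         obtain ⟨n2, k2⟩ := a2
         rcases win_three k0 (by linarith) (by linarith) with e | e | e <;>
           first
             | linarith
             | (rcases win_three k1 (by linarith) (by linarith) with e' | e' | e' <;>
                 first
                   | linarith
                   | (rcases win_three k2 (by linarith) (by linarith) with e'' | e'' | e'' <;>
                       linarith)))

/-- An irregular window cannot be part of five points. -/
lemma five_no_irregular {s : ℕ → Bool} {x y : ℕ → ℝ} (hR : ∀ i < 5, Reg (s i) (x i) (y i))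
    (hx : ∀ i < 3, Win (x i) (x (i + 1)) (x (i + 2)))
    (hy : ∀ i < 3, Win (y i) (y (i + 1)) (y (i + 2))) {i : ℕ} (hi : i < 3)
    (h : s i = false ∧ s (i + 1) = false ∧ s (i + 2) = true) : False := by
  have F : Five (s 0) (s 1) (s 2) (s 3) (s 4) (x 0) (x 1) (x 2) (x 3) (x 4)
      (y 0) (y 1) (y 2) (y 3) (y 4) :=
    ⟨hR 0 (by omega), hR 1 (by omega), hR 2 (by omega), hR 3 (by omega), hR 4 (by omega),
      hx 0 (by omega), hx 1 (by omega), hx 2 (by omega),
      hy 0 (by omega), hy 1 (by omega), hy 2 (by omega)⟩
  obtain ⟨h0, h1, h2⟩ := h
  interval_cases i <;> rw [h0, h1, h2] at F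
  · exact five_no_first F
  · exact five_no_middle F
  · exact five_no_last F

/-- The pattern lemma: a window of five is linear after the shift. -/
theorem five_linear {s : ℕ → Bool} {x y : ℕ → ℝ} (hR : ∀ i < 5, Reg (s i) (x i) (y i))
    (hx : ∀ i < 3, Win (x i) (x (i + 1)) (x (i + 2)))
    (hy : ∀ i < 3, Win (y i) (y (i + 1)) (y (i + 2))) (i : ℕ) (hi : i < 3) :
    back (s i) (x i) + back (s (i + 2)) (x (i + 2)) = 2 * back (s (i + 1)) (x (i + 1)) ∧
      back (s i) (y i) + back (s (i + 2)) (y (i + 2)) = 2 * back (s (i + 1)) (y (i + 1)) := by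
  rcases window_regular (hR i (by omega)) (hR (i + 1) (by omega)) (hR (i + 2) (by omega))
    (hx i hi) (hy i hi) with (h | h) | h
  · exact (five_no_irregular hR hx hy hi h).elim
  · refine (five_no_irregular (s := fun r => s (4 - r)) (x := fun r => x (4 - r))
      (y := fun r => y (4 - r)) (fun r _ => hR (4 - r) (by omega)) (fun r hr => ?_)
      (fun r hr => ?_) (i := 2 - i) (by omega) ?_).elim
    · have := (hx (2 - r) (by omega)).symm
      convert this using 2 <;> omega
    · have := (hy (2 - r) (by omega)).symm
      convert this using 2 <;> omega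
    · refine ⟨?_, ?_, ?_⟩
      · rw [← h.2.2]; congr 1; omega
      · rw [← h.2.1]; congr 1; omega
      · rw [← h.1]; congr 1; omega
  · exact h

end Vale.Agent.P057.Torus
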