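import Vale.Agent.P057.Defs
import Vale.Agent.P057.Torus.Pattern

/-!
# P057: the outermost level on the torus, freeness
-/

namespace Vale.Agent.P057.Torus

open Finset

/-- The even base. -/
def base (r : ℕ) : ℕ := 6 * r

/-- The first coordinate of pair `t`. -/
noncomputable def cx (r t : ℕ) (v : ℤ) : ℝ :=
  Int.fract ((v : ℝ) / ((base r * base r) ^ t * base r : ℕ))

/-- The second coordinate of pair `t`. -/
noncomputable def cy (r t : ℕ) (v : ℤ) : ℝ :=
  Int.fract ((v : ℝ) / ((base r * base r) ^ (t + 1) : ℕ))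

/-- The piece of pair `t`. -/
noncomputable def lab (r t : ℕ) (v : ℤ) : Bool := decide (1 / 2 ≤ cx r t v)

/-- All pairs lie in the region. -/
def InReg (r T : ℕ) (v : ℤ) : Prop := ∀ t < T, Reg (lab r t v) (cx r t v) (cy r t v)

/-- The squared norm after the shift. -/
noncomputable def nsq (r T : ℕ) (v : ℤ) : ℝ :=
  ∑ t ∈ range T, (back (lab r t v) (cx r t v) ^ 2 + back (lab r t v) (cy r t v) ^ 2)

/-- The bin of the squared norm. -/
noncomputable def bin (r T : ℕ) (v : ℤ) : ℤ := ⌊64 * (base r : ℝ) ^ 2 * nsq r T v⌋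

lemma fract_step (R : ℝ) (u a : ℤ) :
    ∃ n : ℤ, Int.fract (((u + a : ℤ) : ℝ) / R) - Int.fract ((u : ℝ) / R) = (a : ℝ) / R + n := by
  refine ⟨⌊(u : ℝ) / R⌋ - ⌊((u + a : ℤ) : ℝ) / R⌋, ?_⟩
  simp only [Int.fract]
  push_cast
  ring

lemma fract_win (R : ℝ) (u a : ℤ) :
    Win (Int.fract ((u : ℝ) / R)) (Int.fract (((u + a : ℤ) : ℝ) / R))
      (Int.fract (((u + a + a : ℤ) : ℝ) / R)) := by
  obtain ⟨n, hn⟩ := fract_step R u a
  obtain ⟨m, hm⟩ := fract_step R (u + a) a
  exact ⟨m - n, by push_cast at hn hm ⊢; linarith⟩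

/-- A small combination of integers vanishes. -/
lemma int_eq_of_small {u v : ℤ} {x : ℝ} (h : (u : ℝ) - v = x) (hx : |x| < 1) : u = v := by
  rw [← h] at hx
  have : |u - v| < 1 := by exact_mod_cast hx
  rw [Int.abs_lt_one_iff] at this
  omega

/-- One pair of coordinates forces divisibility by the square of the base. -/
lemma pair_dvd {r : ℕ} (hr : 0 < r) {b n n' e : ℤ} (he : e = -1 ∨ e = 0 ∨ e = 1) {ε ε' : ℝ}
    (hε : |ε| < 1 / (8 * base r)) (hε' : |ε'| < 1 / (8 * base r))
    (h : (b : ℝ) / base r + n = ε + e / 2)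
    (h' : (b : ℝ) / (base r * base r : ℕ) + n' = ε' + e / 2) :
    ((base r * base r : ℕ) : ℤ) ∣ b := by
  set Q : ℝ := (base r : ℝ) with hQ
  have hQv : Q = 6 * r := by simp [hQ, base]
  have hr1 : (1 : ℝ) ≤ r := by exact_mod_cast hr
  have hQ0 : 0 < Q := by rw [hQv]; positivity
  push_cast at h'
  rw [← hQ] at h'
  rw [lt_div_iff₀ (by positivity)] at hε hε'
  obtain ⟨k, hk⟩ : ∃ k, b = 3 * (r : ℤ) * k := by
    refine ⟨e - 2 * n, ?_⟩
    have e1 : ((2 * b : ℤ) : ℝ) - ((base r : ℤ) * (e - 2 * n) : ℤ) = 2 * Q * ε := by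
      push_cast
      rw [← hQ, ← sub_eq_zero]
      field_simp at h
      linarith
    have := int_eq_of_small e1 (by
      rw [abs_mul, abs_of_pos (by positivity : 0 < 2 * Q)]
      nlinarith [abs_nonneg ε])
    simp only [base, Nat.cast_mul, Nat.cast_ofNat] at this
    linarith
  have hk' : k = (base r : ℤ) * (e - 2 * n') := by
    have e1 : (k : ℝ) - (((base r : ℤ) * (e - 2 * n') : ℤ) : ℝ) = 2 * Q * ε' := by
      push_cast
      rw [← hQ, ← sub_eq_zero]
      have hb : (b : ℝ) = Q / 2 * k := by rw [hk, hQv]; push_cast; ring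
      rw [hb] at h'
      field_simp at h'
      nlinarith [mul_pos hQ0 hQ0]
    exact int_eq_of_small e1 (by
      rw [abs_mul, abs_of_pos (by positivity : 0 < 2 * Q)]
      nlinarith [abs_nonneg ε'])
  have he0 : e = 0 := by
    have h1 : (b : ℝ) / Q + n = ε + e / 2 := h
    have hb : (b : ℝ) / Q = (k : ℝ) / 2 := by rw [hk, hQv]; push_cast; field_simp; ring
    rw [hb] at h1
    have e1 : ((k + 2 * n : ℤ) : ℝ) - (e : ℝ) = 2 * ε := by push_cast; linarith
    have h2 := int_eq_of_small e1 (by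
      rw [abs_mul, abs_two]
      have : 1 ≤ Q := by rw [hQv]; linarith
      nlinarith [abs_nonneg ε])
    subst hk'
    simp only [base, Nat.cast_mul, Nat.cast_ofNat] at h2
    have : (2 : ℤ) ∣ e := ⟨3 * (r : ℤ) * (e - 2 * n') + n, by linarith⟩
    omega
  refine ⟨-n', ?_⟩
  subst he0
  rw [hk, hk']
  simp only [base, Nat.cast_mul, Nat.cast_ofNat]
  ring

/-- The torus level: a set of integers whose bins lie in a dilate of a free set is free. -/
theorem free_torus {r T k : ℕ} (hr : 0 < r) (hk : 5 ≤ k) (τ : ℤ) {A A' : Finset ℤ}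
    (hfree : Free 2 k A')
    (hA : ∀ v ∈ A, (0 ≤ v ∧ v < ((base r * base r) ^ T : ℕ)) ∧ InReg r T v ∧
      ∃ α ∈ A', bin r T v = τ + 4 * α) : Free 1 k A := by
  intro p hp hd
  set a := p 1 - p 0 with ha
  have hap : ∀ j, j + 1 < k → p (j + 1) = p j + a := by
    intro j
    induction j with
    | zero => intro _; linarith
    | succ j ih =>
      intro hj
      have h2 := hd j (by omega)
      simp only [Function.iterate_succ, Function.iterate_zero, Function.comp_apply, id_eq, fwdDiff] at h2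
      have := ih (by omega)
      rw [show j + 1 + 1 = j + 2 by omega] at *
      linarith
  have hwin : ∀ t, ∀ j, j + 2 < k → Win (cx r t (p j)) (cx r t (p (j + 1))) (cx r t (p (j + 2))) ∧
      Win (cy r t (p j)) (cy r t (p (j + 1))) (cy r t (p (j + 2))) := by
    intro t j hj
    rw [hap (j + 1) (by omega), hap j (by omega)]
    exact ⟨fract_win _ _ _, fract_win _ _ _⟩
  set u : ℕ → ℕ → ℝ := fun t j => back (lab r t (p j)) (cx r t (p j)) with hu
  set w : ℕ → ℕ → ℝ := fun t j => back (lab r t (p j)) (cy r t (p j)) with hw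
  have hlin : ∀ t < T, ∀ j, j + 2 < k →
      u t j + u t (j + 2) = 2 * u t (j + 1) ∧ w t j + w t (j + 2) = 2 * w t (j + 1) := by
    intro t ht j hj
    obtain ⟨i, d, rfl, hi, hd5⟩ : ∃ i d, j = i + d ∧ d < 3 ∧ i + 4 < k :=
      ⟨min j (k - 5), j - min j (k - 5), by omega, by omega, by omega⟩
    exact five_linear (s := fun q => lab r t (p (i + q))) (x := fun q => cx r t (p (i + q)))
      (y := fun q => cy r t (p (i + q))) (fun q hq => (hA _ (hp (i + q) (by omega))).2.1 t ht)
      (fun q hq => (hwin t (i + q) (by omega)).1) (fun q hq => (hwin t (i + q) (by omega)).2) d hi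
  -- the bins
  have hch : ∀ j, ∃ α, j < k → α ∈ A' ∧ bin r T (p j) = τ + 4 * α := fun j => by
    by_cases hj : j < k
    · obtain ⟨α, h1, h2⟩ := (hA _ (hp j hj)).2.2
      exact ⟨α, fun _ => ⟨h1, h2⟩⟩
    · exact ⟨0, fun h => absurd h hj⟩
  choose α hα using hch
  set c : ℝ := 64 * (base r : ℝ) ^ 2 with hc
  have hr1 : (1 : ℝ) ≤ r := by exact_mod_cast hr
  have hQ : (base r : ℝ) = 6 * r := by simp [base]
  have hc0 : 0 < c := by rw [hc, hQ]; positivity
  set G : ℕ → ℝ := fun j => ∑ t ∈ range T, (u t j ^ 2 + w t j ^ 2) with hG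
  have hbin : ∀ j < k, ((τ + 4 * α j : ℤ) : ℝ) ≤ c * G j ∧
      c * G j < ((τ + 4 * α j : ℤ) : ℝ) + 1 := by
    intro j hj
    rw [← (hα j hj).2]
    exact ⟨Int.floor_le _, Int.lt_floor_add_one _⟩
  have hG3 : ∀ j, j + 3 < k → G (j + 3) - 3 * G (j + 2) + 3 * G (j + 1) - G j = 0 := by
    intro j hj
    simp only [hG, mul_sum, ← sum_sub_distrib, ← sum_add_distrib]
    refine sum_eq_zero fun t ht => ?_
    obtain ⟨a1, b1⟩ := hlin t (mem_range.1 ht) j (by omega)
    obtain ⟨a2, b2⟩ := hlin t (mem_range.1 ht) (j + 1) (by omega)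
    rw [show j + 1 + 1 = j + 2 by omega, show j + 1 + 2 = j + 3 by omega] at a2 b2
    have a3 : u t (j + 2) = 2 * u t (j + 1) - u t j := by linarith
    have b3 : w t (j + 2) = 2 * w t (j + 1) - w t j := by linarith
    have a4 : u t (j + 3) = 3 * u t (j + 1) - 2 * u t j := by linarith
    have b4 : w t (j + 3) = 3 * w t (j + 1) - 2 * w t j := by linarith
    rw [a3, a4, b3, b4]
    ring
  have hα3 : ∀ j, j + 2 + 1 < k → (fwdDiff 1)^[2 + 1] α j = 0 := by
    intro j hj
    obtain ⟨l0, r0⟩ := hbin j (by omega)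
    obtain ⟨l1, r1⟩ := hbin (j + 1) (by omega)
    obtain ⟨l2, r2⟩ := hbin (j + 2) (by omega)
    obtain ⟨l3, r3⟩ := hbin (j + 3) (by omega)
    have h0 : c * G (j + 3) - 3 * (c * G (j + 2)) + 3 * (c * G (j + 1)) - c * G j = 0 := by
      linear_combination c * hG3 j hj
    set z : ℤ := 4 * (α (j + 3) - 3 * α (j + 2) + 3 * α (j + 1) - α j) with hz
    have hz1 : (z : ℝ) < 4 := by rw [hz]; push_cast at *; linarith
    have hz2 : (-4 : ℝ) < z := by rw [hz]; push_cast at *; linarith
    have hz1' : z < 4 := by exact_mod_cast hz1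
    have hz2' : -4 < z := by exact_mod_cast hz2
    simp only [Function.iterate_succ, Function.iterate_zero, Function.comp_apply, id_eq, fwdDiff]
    rw [show j + 1 + 1 + 1 = j + 3 by omega, show j + 1 + 1 = j + 2 by omega]
    omega
  have hconst := hfree α (fun j hj => (hα j hj).1) hα3
  -- small steps
  have hsmall : ∀ t < T, |u t 1 - u t 0| < 1 / (8 * base r) ∧
      |w t 1 - w t 0| < 1 / (8 * base r) := by
    intro t ht
    obtain ⟨l0, r0⟩ := hbin 0 (by omega)
    obtain ⟨l1, r1⟩ := hbin 1 (by omega)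
    obtain ⟨l2, r2⟩ := hbin 2 (by omega)
    rw [hconst 1 (by omega)] at l1 r1
    rw [hconst 2 (by omega)] at l2 r2
    set S := ∑ t ∈ range T, ((u t 1 - u t 0) ^ 2 + (w t 1 - w t 0) ^ 2) with hS
    have hGS : G 0 + G 2 - 2 * G 1 = 2 * S := by
      simp only [hS, hG, mul_sum, ← sum_sub_distrib, ← sum_add_distrib]
      refine sum_congr rfl fun t ht => ?_
      obtain ⟨a1, b1⟩ := hlin t (mem_range.1 ht) 0 (by omega)
      have a3 : u t 2 = 2 * u t 1 - u t 0 := by linarith
      have b3 : w t 2 = 2 * w t 1 - w t 0 := by linarith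
      rw [a3, b3]
      ring
    have hS1 : c * S < 1 := by
      have : c * (G 0 + G 2 - 2 * G 1) = c * (2 * S) := by rw [hGS]
      linarith
    have hle : (u t 1 - u t 0) ^ 2 + (w t 1 - w t 0) ^ 2 ≤ S :=
      single_le_sum (f := fun t => (u t 1 - u t 0) ^ 2 + (w t 1 - w t 0) ^ 2)
        (fun i _ => by positivity) (mem_range.2 ht)
    have key : ∀ δ : ℝ, δ ^ 2 ≤ S → |δ| < 1 / (8 * base r) := by
      intro δ hδ
      refine abs_lt_of_sq_lt_sq ?_ (by positivity)
      rw [div_pow, one_pow, lt_div_iff₀ (by rw [hQ]; positivity)]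
      have := mul_le_mul_of_nonneg_left hδ hc0.le
      rw [hc] at this hS1
      linarith
    exact ⟨key _ (le_trans (le_add_of_nonneg_right (sq_nonneg _)) hle),
      key _ (le_trans (le_add_of_nonneg_left (sq_nonneg _)) hle)⟩
  -- divisibility
  have hdiv : ∀ t ≤ T, (((base r * base r) ^ t : ℕ) : ℤ) ∣ a := by
    intro t
    induction t with
    | zero => simp
    | succ t ih =>
      intro ht
      obtain ⟨b, hb⟩ := ih (by omega)
      obtain ⟨hsx, hsy⟩ := hsmall t (by omega)
      obtain ⟨n, hn⟩ := fract_step (((base r * base r) ^ t * base r : ℕ) : ℝ) (p 0) a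
      obtain ⟨n', hn'⟩ := fract_step (((base r * base r) ^ (t + 1) : ℕ) : ℝ) (p 0) a
      rw [← hap 0 (by omega)] at hn hn'
      have hQ0 : (base r : ℝ) ≠ 0 := by rw [hQ]; positivity
      have e0 : (a : ℝ) / (((base r * base r) ^ t * base r : ℕ) : ℝ) = (b : ℝ) / base r := by
        rw [hb]; push_cast; field_simp
      have e1 : (a : ℝ) / (((base r * base r) ^ (t + 1) : ℕ) : ℝ) =
          (b : ℝ) / ((base r * base r : ℕ) : ℝ) := by
        rw [hb, pow_succ]; push_cast; field_simp
      rw [e0] at hn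
      rw [e1] at hn'
      set e : ℤ := (bif lab r t (p 1) then 1 else 0) - (bif lab r t (p 0) then 1 else 0) with he
      have hback : ∀ s x, back s x = x - ((bif s then 1 else 0 : ℤ) : ℝ) / 2 := by
        intro s x; cases s <;> simp [back]
      have hdvd := pair_dvd hr (b := b) (n := n) (n' := n') (e := e) (by
          rw [he]; cases lab r t (p 1) <;> cases lab r t (p 0) <;> simp)
        hsx hsy
        (by simp only [hu, he, hback, cx] at hn ⊢; push_cast at hn ⊢; linarith)
        (by simp only [hw, he, hback, cy] at hn' ⊢; push_cast at hn' ⊢; linarith)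
      rw [pow_succ, Nat.cast_mul, hb]
      exact mul_dvd_mul_left _ hdvd
  have ha0 : a = 0 := by
    refine Int.eq_zero_of_abs_lt_dvd (hdiv T le_rfl) ?_
    have h0 := (hA _ (hp 0 (by omega))).1
    have h1 := (hA _ (hp 1 (by omega))).1
    rw [abs_lt]
    constructor <;> linarith [h0.1, h0.2, h1.1, h1.2]
  intro j
  induction j with
  | zero => simp
  | succ j ih =>
    intro hj
    rw [hap j hj, ha0, add_zero]
    exact ih (by omega)

end Vale.Agent.P057.Torus
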