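import Vale.Agent.P057.CascadeStep
import Vale.Agent.P057.Torus.Count

/-!
# P057: the outermost level on the torus, asymptotic form
-/

namespace Vale.Agent.P057.Torus

open Finset Filter

/-- Loss per coordinate of the region, whose area is `5/18`. -/
noncomputable def gam : ℝ := Real.log (18 / 5) / 2

lemma gam_pos : 0 < gam := by
  have := Real.log_pos (show (1 : ℝ) < 18 / 5 by norm_num)
  unfold gam; linarith

lemma gam_lt_log_two : gam < Real.log 2 := by
  have h := Real.log_lt_log (by norm_num) (show (18 / 5 : ℝ) < 2 ^ 2 by norm_num)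
  rw [Real.log_pow] at h
  push_cast at h
  unfold gam; linarith

/-- Rounding the side down to a square. -/
lemma round_bound {r m : ℝ} (hr : 0 < r) (hm0 : 0 ≤ m) (h1 : m ≤ (r + 1) ^ 2) (d : ℕ) :
    (36 * m) ^ d ≤ (36 * r ^ 2) ^ d * Real.exp (2 * d / r) := by
  calc (36 * m) ^ d ≤ (36 * r ^ 2 * Real.exp (2 / r)) ^ d := by
        refine pow_le_pow_left₀ (by positivity) ?_ d
        have h2 : (r + 1) ^ 2 ≤ r ^ 2 * Real.exp (2 / r) := by
          have := Real.add_one_le_exp (1 / r)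
          have h3 : r + 1 = r * (1 / r + 1) := by field_simp; ring
          rw [h3, mul_pow, show (2 : ℝ) / r = 1 / r + 1 / r by ring, Real.exp_add, ← sq]
          gcongr
        linarith
    _ = _ := by rw [mul_pow, ← Real.exp_nat_mul]; congr 2; ring

/-- The final comparison. -/
lemma final_bound {N W A x g E B : ℝ} (hW : 0 ≤ W) (hN : N ≤ 2 * (W * Real.exp x))
    (hA : W * Real.exp (-g) * Real.exp (-E) ≤ 5 * A) (hB : x + (g + Real.log 10) + E ≤ B) :
    N * Real.exp (-B) ≤ A := by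
  calc N * Real.exp (-B) ≤ 2 * (W * Real.exp x) * Real.exp (-(x + (g + Real.log 10) + E)) :=
        mul_le_mul hN (Real.exp_le_exp.2 (by linarith)) (Real.exp_pos _).le (by positivity)
    _ = W * Real.exp (-g) * Real.exp (-E) / 5 := by
        rw [mul_assoc 2, mul_assoc W, ← Real.exp_add,
          show x + -(x + (g + Real.log 10) + E) = -g + -E + -Real.log 10 by ring,
          Real.exp_add, Real.exp_add, Real.exp_neg (Real.log 10), Real.exp_log (by norm_num)]
        ring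
    _ ≤ A := by linarith

lemma pow_split (r : ℝ) (d : ℕ) :
    (10 * r ^ 2) ^ d = (36 * r ^ 2) ^ d * Real.exp (-(2 * gam * d)) := by
  rw [show -(2 * gam * (d : ℝ)) = (d : ℝ) * -(2 * gam) by ring, Real.exp_nat_mul, ← mul_pow]
  congr 1
  rw [gam, mul_div_cancel₀ _ two_ne_zero, Real.exp_neg, Real.exp_log (by norm_num)]
  ring

/-- The rounding error is negligible. -/
lemma round_error {lam ε u d r : ℝ} (hε : 0 < ε) (hu : 1 ≤ u) (hr : 0 < r)
    (hd : d ≤ lam / 2 * u + 1) (h : 4 * (lam + 2) / ε ≤ r) : 2 * d / r ≤ ε / 4 * u := by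
  rw [div_le_iff₀ hε] at h
  rw [div_le_iff₀ hr]
  have h2 := mul_le_mul_of_nonneg_left h (show 0 ≤ u by linarith)
  linarith

/-- The size of the range of the bins. -/
lemma log_bound {lam δ u U d r m M : ℝ} (hlam : 0 < lam) (hδ : 0 < δ) (hd1 : 1 ≤ d) (hr1 : 1 ≤ r)
    (hrm : r ^ 2 ≤ m) (huq : u ≤ U) (hdle : d ≤ lam / 2 * u + 1)
    (hbig : 4 * (Real.log 5000 + δ / (2 * lam) - Real.log (δ / (2 * lam))) / δ ≤ u)
    (hlogM : Real.log (d * m ^ 2) ≤ (2 / (lam / 2) + δ) * U) (hM : M = 5000 * d * r ^ 2) :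
    Real.log M ≤ (2 / lam + δ) * U := by
  have hm0 : 0 < m := lt_of_lt_of_le (by positivity) hrm
  rw [Real.log_mul (by positivity) (by positivity), Real.log_pow] at hlogM
  push_cast at hlogM
  set a : ℝ := δ / (2 * lam) with ha
  have ha0 : 0 < a := by positivity
  have e1 : Real.log M ≤ Real.log 5000 + Real.log d + Real.log m := by
    rw [hM, Real.log_mul (by positivity) (by positivity),
      Real.log_mul (by norm_num) (by positivity)]
    have := Real.log_le_log (show 0 < r ^ 2 by positivity) hrm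
    linarith
  have e2 : Real.log d ≤ a * d - Real.log a := by
    have := Real.log_le_sub_one_of_pos (mul_pos ha0 (show 0 < d by linarith))
    rw [Real.log_mul ha0.ne' (by linarith)] at this
    linarith
  have e3 : a * d ≤ δ / 4 * u + a := by
    refine (mul_le_mul_of_nonneg_left hdle ha0.le).trans_eq ?_
    rw [ha]; field_simp; ring
  have e4 : Real.log 5000 + a - Real.log a ≤ δ / 4 * u := by
    rw [div_le_iff₀ hδ] at hbig; linarith
  rw [show 2 / (lam / 2) = 2 * (2 / lam) by field_simp] at hlogM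
  have e6 : 0 ≤ Real.log d := Real.log_nonneg hd1
  have e7 := mul_le_mul_of_nonneg_left huq hδ.le
  linarith

/-- The torus step. -/
theorem good_torus {k q : ℕ} (hq : 1 ≤ q) (hk : 5 ≤ k) {C : ℝ} (hC : 0 ≤ C) (h : Good 2 k q C)
    {lam : ℝ} (hlam : 0 < lam) :
    Good 1 k (q + 1) (gam * lam + C * (2 / lam) ^ ((1 : ℝ) / q)) := by
  intro ε hε
  obtain ⟨δ, hδ, hδε⟩ : ∃ δ : ℝ, 0 < δ ∧
      (C + δ) * (2 / lam + δ) ^ ((1 : ℝ) / q) < C * (2 / lam) ^ ((1 : ℝ) / q) + ε / 2 := by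
    have hcont : ContinuousAt (fun δ : ℝ => (C + δ) * (2 / lam + δ) ^ ((1 : ℝ) / q)) 0 := by
      refine ContinuousAt.mul (by fun_prop) (ContinuousAt.rpow_const (by fun_prop) (Or.inl ?_))
      simp [hlam.ne']
    have hlt := hcont.eventually_lt continuousAt_const
      (show (C + 0) * (2 / lam + 0) ^ ((1 : ℝ) / q) < C * (2 / lam) ^ ((1 : ℝ) / q) + ε / 2 by
        simp only [add_zero]; linarith)
    obtain ⟨δ, hδ, hpos⟩ :=
      ((hlt.filter_mono nhdsWithin_le_nhds).and (self_mem_nhdsWithin (s := Set.Ioi (0 : ℝ)))).exists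
    exact ⟨δ, hpos, hδ⟩
  obtain ⟨N₁, hN₁⟩ := h δ hδ
  set R0 : ℝ := (N₁ : ℝ) + 2 + 4 * (lam + 2) / ε with hR0
  have hR0' : 0 ≤ 4 * (lam + 2) / ε := by positivity
  have hu : Tendsto (fun N : ℕ => Real.log N ^ ((1 : ℝ) / (q + 1 : ℕ))) atTop atTop :=
    (tendsto_rpow_atTop (by positivity)).comp
      (Real.tendsto_log_atTop.comp tendsto_natCast_atTop_atTop)
  set a : ℝ := δ / (2 * lam) with ha
  have ha0 : 0 < a := by positivity
  have hev := (Cascade.digit_params (P := 36) (by norm_num) q hq (show 0 < lam / 2 by linarith) hδ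
    ((R0 + 1) ^ 2)).and ((hu.eventually_ge_atTop 1).and
      ((hu.eventually_ge_atTop (4 * (2 * gam + Real.log 10) / ε)).and
        (hu.eventually_ge_atTop (4 * (Real.log 5000 + a - Real.log a) / δ))))
  obtain ⟨N₀, hN₀⟩ := eventually_atTop.1 hev
  refine ⟨N₀, fun N hN => ?_⟩
  obtain ⟨⟨d, m, hd0, hmT, hup, hlow, hdle, hlogM⟩, hu1, hbig1, hbig2⟩ := hN₀ N hN
  set u := Real.log (N : ℝ) ^ ((1 : ℝ) / (q + 1 : ℕ)) with hudef
  have hu0 : 0 ≤ u := by linarith
  have huq : u ≤ u ^ q := le_self_pow₀ hu1 (Nat.one_le_iff_ne_zero.1 hq)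
  set r := Nat.sqrt m with hr
  have hrm : r ^ 2 ≤ m := Nat.sqrt_le' m
  have hmr : m < (r + 1) ^ 2 := Nat.lt_succ_sqrt' m
  have hrR : R0 ≤ (r : ℝ) := by
    have h1 : (R0 + 1) ^ 2 < ((r : ℝ) + 1) ^ 2 :=
      lt_of_le_of_lt hmT (by exact_mod_cast hmr)
    have := lt_of_pow_lt_pow_left₀ 2 (by positivity) h1
    linarith
  have hr1 : (1 : ℝ) ≤ r := by
    have : (0 : ℝ) ≤ N₁ := Nat.cast_nonneg _
    linarith
  have hr0 : 0 < r := by exact_mod_cast (zero_lt_one' ℝ).trans_le hr1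
  set M := 5000 * d * r ^ 2 with hM
  have hN₁M : N₁ ≤ M := by
    have : (N₁ : ℝ) ≤ r := by linarith
    have h1 : N₁ ≤ r := by exact_mod_cast this
    calc N₁ ≤ r := h1
      _ ≤ r ^ 2 := Nat.le_self_pow two_ne_zero r
      _ ≤ M := Nat.le_mul_of_pos_left _ (by omega)
  obtain ⟨A', hA', hfree, hcard⟩ := hN₁ M hN₁M
  obtain ⟨A, hA, hAfree, hAcard⟩ := torus_step hr0 hd0 hk A' hfree hA' le_rfl
  have hbase : ((base r * base r : ℕ) : ℝ) = 36 * (r : ℝ) ^ 2 := by simp [base]; ring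
  refine ⟨A, fun x hx => ⟨(hA x hx).1, lt_of_lt_of_le (hA x hx).2 ?_⟩, hAfree, ?_⟩
  · have : (((base r * base r) ^ d : ℕ) : ℝ) ≤ ((N : ℕ) : ℝ) := by
      rw [Nat.cast_pow, hbase]
      refine le_trans (pow_le_pow_left₀ (by positivity) ?_ d) hup
      have : ((r ^ 2 : ℕ) : ℝ) ≤ m := by exact_mod_cast hrm
      push_cast at this
      linarith
    exact_mod_cast this
  have hd1 : (1 : ℝ) ≤ d := by exact_mod_cast hd0
  have hM0 : (0 : ℝ) < M := by rw [hM]; push_cast; positivity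
  have hlogMq : Real.log (M : ℝ) ≤ (2 / lam + δ) * u ^ q :=
    log_bound (m := (m : ℝ)) hlam hδ hd1 hr1 (by exact_mod_cast hrm) huq hdle hbig2
      (by exact_mod_cast hlogM)
      (by rw [hM]; push_cast; ring)
  have hexp' : (C + δ) * Real.log (M : ℝ) ^ ((1 : ℝ) / q) ≤
      (C * (2 / lam) ^ ((1 : ℝ) / q) + ε / 2) * u := by
    have h1 : Real.log (M : ℝ) ^ ((1 : ℝ) / q) ≤ (2 / lam + δ) ^ ((1 : ℝ) / q) * u := by
      refine (Real.rpow_le_rpow (Real.log_natCast_nonneg M) hlogMq (by positivity)).trans_eq ?_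
      rw [Real.mul_rpow (by positivity) (by positivity), one_div (q : ℝ),
        Real.pow_rpow_inv_natCast hu0 (Nat.one_le_iff_ne_zero.1 hq)]
    calc _ ≤ (C + δ) * ((2 / lam + δ) ^ ((1 : ℝ) / q) * u) :=
          mul_le_mul_of_nonneg_left h1 (by linarith)
      _ = (C + δ) * (2 / lam + δ) ^ ((1 : ℝ) / q) * u := by ring
      _ ≤ _ := mul_le_mul_of_nonneg_right hδε.le hu0
  set E := (C * (2 / lam) ^ ((1 : ℝ) / q) + ε / 2) * u with hE
  have hc : (10 * (r : ℝ) ^ 2) ^ d * A'.card ≤ 5 * M * A.card := by exact_mod_cast hAcard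
  have hlhs : (10 * (r : ℝ) ^ 2) ^ d * Real.exp (-E) ≤ 5 * A.card := by
    have h1 : (10 * (r : ℝ) ^ 2) ^ d * (M * Real.exp (-E)) ≤ 5 * M * A.card := by
      refine le_trans ?_ hc
      refine mul_le_mul_of_nonneg_left (le_trans ?_ hcard) (by positivity)
      gcongr
    nlinarith
  have hgr : (N : ℝ) ≤ 2 * ((36 * (r : ℝ) ^ 2) ^ d * Real.exp (2 * d / r)) :=
    hlow.trans (mul_le_mul_of_nonneg_left
      (round_bound (by linarith) (Nat.cast_nonneg m) (by exact_mod_cast hmr.le) d) (by norm_num))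
  have hdr : 2 * (d : ℝ) / r ≤ ε / 4 * u := by
    have h1 : 4 * (lam + 2) / ε ≤ r := by
      have : (0 : ℝ) ≤ N₁ := Nat.cast_nonneg _
      linarith
    exact round_error hε hu1 (by linarith) hdle h1
  have hgd : 2 * gam * d + Real.log 10 ≤ gam * lam * u + ε / 4 * u := by
    have := mul_le_mul_of_nonneg_left hdle (show 0 ≤ 2 * gam by linarith [gam_pos])
    rw [div_le_iff₀ hε] at hbig1
    linarith
  rw [pow_split] at hlhs
  exact final_bound (by positivity) hgr hlhs (by rw [hE]; linarith)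

end Vale.Agent.P057.Torus
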