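import Vale.Agent.P057.Assembly
import Vale.Agent.P057.CascadeBound
import Vale.Agent.P057.Torus.Step

/-!
# P057: a smaller constant for every `k ≥ 5`
-/

namespace Vale.Agent.P057.Torus

open Finset Polynomial

lemma pos_Lpoly_zero_eq (D : ℕ) : Cascade.pos (Cascade.Lpoly D 0) = 2 ^ D := by
  refine le_antisymm (Cascade.pos_Lpoly_zero D) ?_
  have h := Cascade.two_pos_eq_l1 D 0
  rw [Cascade.l1_eq_sum (Nat.lt_succ_self _)] at h
  have e : |(Cascade.Lpoly D 0).eval (-1)| ≤
      ∑ i ∈ range ((Cascade.Lpoly D 0).natDegree + 1), |(Cascade.Lpoly D 0).coeff i| := by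
    rw [eval_eq_sum_range]
    refine (abs_sum_le_sum_abs _ _).trans_eq (sum_congr rfl fun i _ => ?_)
    simp [abs_mul]
  have e2 : |(Cascade.Lpoly D 0).eval (-1)| = 2 ^ (D + 1) := by
    simp [Cascade.Lpoly, abs_pow]
  rw [e2, pow_succ, ← h] at e
  linarith

/-- A cascade-free set of level `2` is free. -/
lemma free_two {g k : ℕ} (hk : 5 ≤ k) {A : Finset ℤ} (h : Cascade.Free 2 g k A) : Free 2 k A := by
  intro p hp hd j
  obtain ⟨P, hP, hval⟩ := exists_poly hd
  have hper := h p hp ⟨P, Cascade.mem_of_natDegree_lt (by omega), 0, zero_mem _,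
    fun i hi => by simp [hval i hi]⟩
  have h0 := hd 0 (by omega)
  simp only [Function.iterate_succ, Function.iterate_zero, Function.comp_apply, id_eq, fwdDiff,
    zero_add, Nat.reduceAdd] at h0
  have a := hper 0 (by omega)
  have b := hper 1 (by omega)
  simp only [zero_add, Nat.reduceAdd] at a b
  induction j using Nat.strong_induction_on with
  | _ j ih =>
    intro hj
    rcases j with _ | _ | j
    · rfl
    · linarith
    · rw [hper j (by omega)]
      exact ih j (by omega) (by omega)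

/-- Logarithmic loss of level `2 ^ i`. -/
noncomputable def loss (n k i : ℕ) : ℝ :=
  Real.log (Cascade.pos (Cascade.Lpoly (2 ^ i) (Cascade.gLevel n k (2 ^ i))) : ℝ)

lemma loss_pos (n k i : ℕ) : 0 < loss n k i := by
  have := Cascade.two_le_pos_Lpoly (g := Cascade.gLevel n k (2 ^ i))
    (Nat.one_le_two_pow (n := i))
  exact Real.log_pos (by exact_mod_cast (show (1 : ℤ) < _ by omega))

/-- The inner levels, in the range of the cascade. -/
lemma inner_cascade {n k : ℕ} (hn : 3 ≤ n) (hk1 : 3 * 2 ^ (n - 2) + 2 ≤ k) (hk2 : k ≤ 2 ^ n) :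
    Good 2 k (n - 1) (((n - 1 : ℕ) : ℝ) *
      (2 ^ (n - 2) * ∏ i ∈ Ico 1 (n - 1), loss n k i) ^ ((1 : ℝ) / (n - 1 : ℕ))) := by
  have hpow : 2 ^ n = 4 * 2 ^ (n - 2) := by
    rw [show 4 = 2 ^ 2 by norm_num, ← pow_add]; congr 1; omega
  have main : ∀ j, j ≤ n - 2 → Cascade.Good (2 ^ (n - 1 - j))
      (Cascade.gLevel n k (2 ^ (n - 1 - j))) k (j + 1)
      (((j + 1 : ℕ) : ℝ) * (2 ^ j * ∏ i ∈ Ico (n - 1 - j) (n - 1), loss n k i) ^
        ((1 : ℝ) / (j + 1 : ℕ))) := by
    intro j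
    induction j with
    | zero =>
      intro _
      refine Cascade.good_congr ?_ (Cascade.good_base _ _ k)
      simp
    | succ j ih =>
      intro hj
      have h := ih (by omega)
      have hlvl : n - 1 - j = n - 1 - (j + 1) + 1 := by omega
      rw [hlvl, pow_succ'] at h
      have hDa : 2 ^ (n - 1 - (j + 1)) ≤ 2 ^ (n - 2) :=
        Nat.pow_le_pow_right (by norm_num) (by omega)
      have hD1 : 1 ≤ 2 ^ (n - 1 - (j + 1)) := Nat.one_le_two_pow
      refine Cascade.good_congr ?_ (Cascade.good_halve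
        (g := Cascade.gLevel n k (2 ^ (n - 1 - (j + 1)))) (by omega) hD1
        (by unfold Cascade.gLevel; omega) (by unfold Cascade.gLevel; omega)
        (by unfold Cascade.gLevel; omega) (Cascade.two_le_pos_Lpoly hD1)
        (mul_pos (by positivity) (prod_pos fun i _ => loss_pos n k i)) h)
      rw [Finset.prod_eq_prod_Ico_succ_bot (show n - 1 - (j + 1) < n - 1 by omega)]
      rw [pow_succ (2 : ℝ), loss]
      congr 2
      ring
  have h := main (n - 2) le_rfl
  rw [show n - 2 + 1 = n - 1 by omega, show n - 1 - (n - 2) = 1 by omega] at h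
  intro ε hε
  obtain ⟨N₀, hN⟩ := h ε hε
  refine ⟨N₀, fun N hle => ?_⟩
  obtain ⟨A, hA, hfree, hc⟩ := hN N hle
  have := Nat.one_le_two_pow (n := n - 2)
  exact ⟨A, hA, free_two (by omega) (by simpa using hfree), hc⟩

/-- The inner levels, below the range of the cascade. -/
lemma inner_plain {n k : ℕ} (hn : 3 ≤ n) (hk1 : 2 ^ (n - 1) < k)
    (hk2 : k ≤ 3 * 2 ^ (n - 2) + 1) :
    Good 2 k (n - 1) (((n - 1 : ℕ) : ℝ) *
      (2 ^ (n - 2) * ∏ i ∈ Ico 1 (n - 1), loss n k i) ^ ((1 : ℝ) / (n - 1 : ℕ))) := by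
  have hloss : ∀ i, i ≤ n - 2 → loss n k i = ((2 ^ i : ℕ) : ℝ) * Real.log 2 := by
    intro i hi
    have : 2 ^ i ≤ 2 ^ (n - 2) := Nat.pow_le_pow_right (by norm_num) hi
    have hg : Cascade.gLevel n k (2 ^ i) = 0 := by unfold Cascade.gLevel; omega
    rw [loss, hg, pos_Lpoly_zero_eq]
    push_cast
    rw [Real.log_pow]
    push_cast
    rfl
  have main : ∀ j, j ≤ n - 2 → Good (2 ^ (n - 1 - j)) k (j + 1)
      (((j + 1 : ℕ) : ℝ) * (2 ^ j * ∏ i ∈ Ico (n - 1 - j) (n - 1), loss n k i) ^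
        ((1 : ℝ) / (j + 1 : ℕ))) := by
    intro j
    induction j with
    | zero =>
      intro _ ε hε
      refine ⟨1, fun N hN => ⟨{0}, ?_, ?_, ?_⟩⟩
      · intro a ha
        rw [mem_singleton] at ha
        omega
      · intro p hp _ i hi
        rw [mem_singleton.1 (hp i hi), mem_singleton.1 (hp 0 (by omega))]
      · have hN0 : (0 : ℝ) < N := by exact_mod_cast hN
        simp only [card_singleton, Nat.cast_one, zero_add, Nat.sub_zero, Ico_self, prod_empty,
          pow_zero, mul_one, div_one, Real.rpow_one]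
        calc (N : ℝ) * Real.exp (-((1 + ε) * Real.log N)) ≤ N * Real.exp (-Real.log N) := by
              gcongr
              nlinarith [Real.log_natCast_nonneg N]
          _ = 1 := by rw [Real.exp_neg, Real.exp_log hN0]; field_simp
    | succ j ih =>
      intro hj
      have h := ih (by omega)
      have hlvl : n - 1 - j = n - 1 - (j + 1) + 1 := by omega
      rw [hlvl, pow_succ'] at h
      have hk' : 2 * 2 ^ (n - 1 - (j + 1)) + 1 ≤ k := by
        have : 2 * 2 ^ (n - 1 - (j + 1)) ≤ 2 ^ (n - 1) := by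
          rw [← pow_succ']
          exact Nat.pow_le_pow_right (by norm_num) (by omega)
        omega
      refine good_congr ?_ (good_halve (by omega) (by positivity) hk'
        (mul_pos (by positivity) (prod_pos fun i _ => loss_pos n k i)) h)
      rw [Finset.prod_eq_prod_Ico_succ_bot (show n - 1 - (j + 1) < n - 1 by omega)]
      rw [pow_succ (2 : ℝ), hloss (n - 1 - (j + 1)) (by omega)]
      congr 2
      push_cast
      ring
  have h := main (n - 2) le_rfl
  rw [show n - 2 + 1 = n - 1 by omega, show n - 1 - (n - 2) = 1 by omega, pow_one] at h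
  exact h

/-- The new constant. -/
noncomputable def torusC (n k : ℕ) : ℝ :=
  (n : ℝ) * (2 ^ (n - 1) * gam * ∏ i ∈ Ico 1 (n - 1), loss n k i) ^ ((1 : ℝ) / n)

/-- The outermost level with the optimal parameter. -/
theorem good_top_level {n k : ℕ} (hn : 3 ≤ n) (hk1 : 2 ^ (n - 1) < k) (hk2 : k ≤ 2 ^ n) :
    Good 1 k n (torusC n k) := by
  have hk5 : 5 ≤ k := by
    have : 2 ^ 2 ≤ 2 ^ (n - 1) := Nat.pow_le_pow_right (by norm_num) (by omega)
    omega
  have hinner : Good 2 k (n - 1) (((n - 1 : ℕ) : ℝ) *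
      (2 ^ (n - 2) * ∏ i ∈ Ico 1 (n - 1), loss n k i) ^ ((1 : ℝ) / (n - 1 : ℕ))) := by
    by_cases hc : 3 * 2 ^ (n - 2) + 2 ≤ k
    · exact inner_cascade hn hc hk2
    · exact inner_plain hn hk1 (by omega)
  obtain ⟨q, rfl⟩ : ∃ q, n = q + 1 := ⟨n - 1, by omega⟩
  simp only [Nat.add_sub_cancel] at hinner ⊢
  unfold torusC
  simp only [Nat.add_sub_cancel]
  set T : ℝ := 2 ^ (q + 1 - 2) * ∏ i ∈ Ico 1 q, loss (q + 1) k i with hT
  have hT0 : 0 < T := mul_pos (by positivity) (prod_pos fun i _ => loss_pos _ k i)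
  have hγ := gam_pos
  have hqr : (0 : ℝ) < q := by exact_mod_cast (show 0 < q by omega)
  have hbody : (2 : ℝ) ^ q * gam * ∏ i ∈ Ico 1 q, loss (q + 1) k i = 2 * gam * T := by
    have e : (2 : ℝ) ^ q = 2 * 2 ^ (q + 1 - 2) := by rw [← pow_succ']; congr 1; omega
    rw [hT, e]
    ring
  rw [hbody]
  set K := (2 * gam * T) ^ ((1 : ℝ) / ((q + 1 : ℕ) : ℝ)) with hK
  have hb : (0 : ℝ) < 2 * gam * T := by positivity
  have hK0 : 0 < K := Real.rpow_pos_of_pos hb _
  have hKp : K ^ (q + 1) = 2 * gam * T := by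
    rw [hK, one_div]
    exact Real.rpow_inv_natCast_pow hb.le (Nat.succ_ne_zero q)
  have e : T ^ ((1 : ℝ) / q) * (2 / (K / gam)) ^ ((1 : ℝ) / q) = K := by
    rw [← Real.mul_rpow hT0.le (by positivity),
      show T * (2 / (K / gam)) = K ^ q by
        field_simp
        rw [← pow_succ', hKp]
        ring,
      one_div, Real.pow_rpow_inv_natCast hK0.le (by omega)]
  refine good_congr ?_ (good_torus (by omega) hk5 (by positivity) hinner
    (lam := K / gam) (by positivity))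
  rw [mul_assoc (q : ℝ), e]
  push_cast
  field_simp
  ring

/-- The old constant. -/
noncomputable def oldC (n : ℕ) : ℝ :=
  (n : ℝ) * 2 ^ (((n : ℝ) - 1) / 2) * Real.log 2 ^ (1 - 1 / (n : ℝ))

/-- The share of the outermost level. -/
noncomputable def theta : ℝ := Real.log (18 / 5) / (2 * Real.log 2)

lemma theta_eq : gam = theta * Real.log 2 := by
  have : Real.log 2 ≠ 0 := (Real.log_pos (by norm_num)).ne'
  rw [gam, theta]; field_simp

lemma theta_bounds : 0 < theta ∧ theta < 1 := by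
  have hl : 0 < Real.log 2 := Real.log_pos (by norm_num)
  have h1 := gam_pos
  have h2 := gam_lt_log_two
  rw [theta_eq] at h1 h2
  constructor <;> nlinarith

/-- Comparison with the old constant, given a bound for the losses of the inner levels. -/
lemma torusC_le_of {n k : ℕ} (hn : 3 ≤ n) {κ : ℝ} (hκ : 0 ≤ κ)
    (h : ∏ i ∈ Ico 1 (n - 1), loss n k i ≤
      (∏ i ∈ Ico 1 (n - 1), (2 : ℝ) ^ i * Real.log 2) * κ) :
    torusC n k ≤ oldC n * (theta * κ) ^ (1 / (n : ℝ)) := by
  have hl : 0 < Real.log 2 := Real.log_pos (by norm_num)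
  obtain ⟨θ0, -⟩ := theta_bounds
  have hn0 : (0 : ℝ) < n := by exact_mod_cast (show 0 < n by omega)
  have key : (2 : ℝ) ^ (n - 1) * ∏ i ∈ range (n - 1), (2 : ℝ) ^ i * Real.log 2 =
      2 ^ ((n : ℝ) * ((n : ℝ) - 1) / 2) * Real.log 2 ^ ((n : ℝ) - 1) := by
    have e : (2 : ℝ) ^ (n - 1) * ∏ i ∈ range (n - 1), (2 : ℝ) ^ i =
        2 ^ ((n : ℝ) * ((n : ℝ) - 1) / 2) := by
      obtain ⟨m, rfl⟩ : ∃ m, n = m + 1 := ⟨n - 1, by omega⟩
      rw [Nat.add_sub_cancel, mul_comm, ← prod_range_succ (fun i => (2 : ℝ) ^ i),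
        prod_pow_eq_pow_sum, ← Real.rpow_natCast]
      congr 1
      have := congrArg (fun x : ℕ => (x : ℝ)) (sum_range_id_mul_two (m + 1))
      push_cast at this ⊢
      linarith
    rw [prod_mul_distrib, prod_const, card_range, ← mul_assoc, e, ← Real.rpow_natCast _ (n - 1),
      Nat.cast_sub (by omega)]
    norm_num
  have h2 : (2 : ℝ) ^ (((n : ℝ) - 1) / 2) =
      (2 ^ ((n : ℝ) * ((n : ℝ) - 1) / 2)) ^ (1 / (n : ℝ)) := by
    rw [← Real.rpow_mul (by norm_num)]
    congr 1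
    field_simp
  have h3 : Real.log 2 ^ (1 - 1 / (n : ℝ)) = (Real.log 2 ^ ((n : ℝ) - 1)) ^ (1 / (n : ℝ)) := by
    rw [← Real.rpow_mul hl.le]
    congr 1
    field_simp
  rw [torusC, oldC, mul_assoc (n : ℝ), mul_assoc (n : ℝ), h2, h3,
    ← Real.mul_rpow (by positivity) (by positivity),
    ← Real.mul_rpow (by positivity) (by positivity)]
  refine mul_le_mul_of_nonneg_left ?_ hn0.le
  refine Real.rpow_le_rpow
    (mul_nonneg (mul_nonneg (by positivity) gam_pos.le) (prod_nonneg fun i _ => (loss_pos n k i).le))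
    ?_ (by positivity)
  rw [← key, range_eq_Ico, Finset.prod_eq_prod_Ico_succ_bot (show 0 < n - 1 by omega)]
  calc (2 : ℝ) ^ (n - 1) * gam * ∏ i ∈ Ico 1 (n - 1), loss n k i
      ≤ (2 : ℝ) ^ (n - 1) * gam * ((∏ i ∈ Ico 1 (n - 1), (2 : ℝ) ^ i * Real.log 2) * κ) :=
        mul_le_mul_of_nonneg_left h (mul_nonneg (by positivity) gam_pos.le)
    _ = _ := by rw [theta_eq]; simp only [zero_add, pow_zero]; ring

lemma loss_le {n k i : ℕ} (hn : 3 ≤ n) (hk2 : k ≤ 2 ^ n) (hi : i ≤ n - 2) :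
    loss n k i ≤ (2 : ℝ) ^ i * Real.log 2 := by
  have hpow : 2 ^ n = 4 * 2 ^ (n - 2) := by
    rw [show 4 = 2 ^ 2 by norm_num, ← pow_add]; congr 1; omega
  have : 2 ^ i ≤ 2 ^ (n - 2) := Nat.pow_le_pow_right (by norm_num) hi
  have := Cascade.log_pos_le_two_pow (D := 2 ^ i) (g := Cascade.gLevel n k (2 ^ i))
    Nat.one_le_two_pow (by unfold Cascade.gLevel; omega)
  simpa [loss] using this

theorem torusC_le {n k : ℕ} (hn : 3 ≤ n) (hk2 : k ≤ 2 ^ n) :
    torusC n k ≤ oldC n * theta ^ (1 / (n : ℝ)) := by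
  have h := torusC_le_of (n := n) (k := k) hn zero_le_one (by
    rw [mul_one]
    exact prod_le_prod (fun i _ => (loss_pos n k i).le) fun i hi =>
      loss_le hn hk2 (by have := mem_Ico.1 hi; omega))
  rwa [mul_one] at h

theorem torusC_le_cascade {n k : ℕ} (hn : 3 ≤ n) (hk1 : 3 * 2 ^ (n - 2) + 2 ≤ k)
    (hk2 : k ≤ 2 ^ n) :
    torusC n k ≤ oldC n * (theta * Cascade.topTheta n) ^ (1 / (n : ℝ)) := by
  obtain ⟨t0, -⟩ := Cascade.topTheta_lt_one hn
  refine torusC_le_of hn t0.le ?_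
  obtain ⟨m, hm⟩ : ∃ m, n - 1 = m + 1 := ⟨n - 2, by omega⟩
  have hm2 : n - 2 = m := by omega
  have hpow : 2 ^ n = 4 * 2 ^ (n - 2) := by
    rw [show 4 = 2 ^ 2 by norm_num, ← pow_add]; congr 1; omega
  rw [hm, prod_Ico_succ_top (by omega), prod_Ico_succ_top (by omega), mul_assoc]
  refine mul_le_mul (prod_le_prod (fun i _ => (loss_pos n k i).le) fun i hi =>
    loss_le hn hk2 (by have := mem_Ico.1 hi; omega)) ?_ (loss_pos n k m).le
    (prod_nonneg fun i _ => mul_nonneg (by positivity) (Real.log_nonneg (by norm_num)))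
  have hm1 : 2 ≤ 2 ^ m := Nat.le_self_pow (by omega) 2
  rw [hm2] at hk1 hpow
  have := Cascade.log_pos_top_le (g := Cascade.gLevel n k (2 ^ m)) hm1
    (by unfold Cascade.gLevel; rw [hm2]; omega) (by unfold Cascade.gLevel; rw [hm2]; omega)
  rw [loss]
  refine this.trans_eq ?_
  have hl : Real.log 2 ≠ 0 := (Real.log_pos (by norm_num)).ne'
  unfold Cascade.topTheta
  rw [hm2]
  field_simp

theorem torusC_lt {n k : ℕ} (hn : 3 ≤ n) (hk2 : k ≤ 2 ^ n) : torusC n k < oldC n := by
  obtain ⟨h0, h1⟩ := theta_bounds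
  have : 0 < Real.log 2 := Real.log_pos (by norm_num)
  have hn0 : (0 : ℝ) < n := by exact_mod_cast (show 0 < n by omega)
  refine (torusC_le hn hk2).trans_lt (mul_lt_of_lt_one_right ?_ (Real.rpow_lt_one h0.le h1 ?_))
  · unfold oldC; positivity
  · positivity

/-- The bound for progressions in `[1, N]`. -/
theorem progression_bound {n k : ℕ} (hn : 3 ≤ n) (hk1 : 2 ^ (n - 1) < k) (hk2 : k ≤ 2 ^ n)
    {ε : ℝ} (hε : 0 < ε) :
    ∃ N₀ : ℕ, ∀ N : ℕ, N₀ ≤ N → ∃ A : Finset ℕ, A ⊆ Finset.Icc 1 N ∧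
      (∀ a d : ℕ, 0 < d → ∃ i < k, a + i * d ∉ A) ∧
      (N : ℝ) * Real.exp (-((torusC n k + ε) * Real.log N ^ (1 / (n : ℝ)))) ≤ A.card := by
  obtain ⟨N₀, hN⟩ := good_top_level hn hk1 hk2 ε hε
  have := Nat.one_le_two_pow (n := n - 1)
  refine ⟨N₀, fun N hle => ?_⟩
  obtain ⟨A₀, hA, hfree, hc⟩ := hN N hle
  refine ⟨A₀.image fun a => (a + 1).toNat, ?_, ?_, ?_⟩
  · intro b hb
    obtain ⟨a, ha, rfl⟩ := Finset.mem_image.1 hb
    have := hA a ha
    rw [Finset.mem_Icc]
    omega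
  · intro a d hd
    by_contra hall
    push Not at hall
    have hmem : ∀ i < k, (a : ℤ) + i * d - 1 ∈ A₀ := by
      intro i hi
      obtain ⟨b, hb, e⟩ := Finset.mem_image.1 (hall i hi)
      have := hA b hb
      have : (a : ℤ) + i * d - 1 = b := by
        have := congrArg (fun z : ℕ => (z : ℤ)) e
        push_cast at this
        omega
      rwa [this]
    have h := hfree (fun i => (a : ℤ) + i * d - 1) hmem (fun j _ => ?_) 1 (by omega)
    · simp at h
      omega
    · simp only [Nat.reduceAdd, Function.iterate_succ, Function.iterate_zero, Function.comp_apply,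
        fwdDiff, id_eq]
      push_cast
      ring
  · rw [Finset.card_image_of_injOn]
    · exact hc
    · intro a ha b hb e
      have := hA a ha
      have := hA b hb
      simp only at e
      omega

end Vale.Agent.P057.Torus
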